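import Vale.Agent.P281.H615.UL.Mix
import Vale.Agent.P281.H68.UL.Defs

/-!
# P281, project T-UL (helper615), block MX (ii): the choice of the units and the rank
-/

open Set Filter Metric Vale.Agent.P281
open Vale.Agent.P281.H64 (Cm IsProperFibration)
open Vale.Agent.P281.H713 Vale.Agent.P281.MF
open Vale.Agent.P281.H64.TU (RankAt)
open Vale.Agent.P281.H511.UL
open Vale.Agent.P281.H969.TL (IsUnitAt IsUnitOn)
open Vale.Agent.P281.H68.UL (IsUF LX UX MixRankStmt)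
open scoped Topology ContDiff Manifold

set_option linter.unusedSectionVars false

noncomputable section

namespace Vale.Agent.P281.H615.UL

section Geo

variable {p d q : ℕ} {X Y : Type} [TopologicalSpace X] [ChartedSpace (Cm (p + d)) X]
  [IsManifold 𝓘(ℂ, Cm (p + d)) ω X] [TopologicalSpace Y]
  [ChartedSpace (Cm p) Y] [IsManifold 𝓘(ℂ, Cm p) ω Y]
  {V : Type} [NormedAddCommGroup V] [InnerProductSpace ℂ V] [FiniteDimensional ℂ V]

/-- Slices with a coefficient different from `0` are open in the fibre. -/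
theorem slice_open_x {f : X → Y} (hf : ContMDiff 𝓘(ℂ, Cm (p + d)) 𝓘(ℂ, Cm p) ω f) {x : X}
    (hs : Function.Surjective (mfderiv 𝓘(ℂ, Cm (p + d)) 𝓘(ℂ, Cm p) f x)) {β : X → V}
    (hβ : ContMDiffAt 𝓘(ℂ, Cm (p + d)) 𝓘(ℂ, V) ω β x) {u : Fin q → X → ℂ}
    (hu : ∀ j, ContMDiffAt 𝓘(ℂ, Cm (p + d)) 𝓘(ℂ, ℂ) ω (u j) x) {s : Cm d → X} {v₀ : Cm d}
    (hq : ContMDiffAt 𝓘(ℂ, Cm d) 𝓘(ℂ, Cm (p + d)) ω s v₀) (hqx : s v₀ = x)
    (hqf : ∀ᶠ v in 𝓝 v₀, f (s v) = f x) {m : Fin d → (V →L[ℂ] ℂ)} {c' : Fin d → Fin q → ℂ}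
    (hm : xcoef m c' (fun v => β (s v)) (fun j v => u j (s v)) v₀ ≠ 0) {P : Cm d → Prop}
    (hP : ∀ᶠ v in 𝓝 v₀, P v) : ∀ᶠ z in 𝓝 x, f z = f x → ∃ v, P v ∧ s v = z := by
  obtain ⟨c, hxs, hc⟩ := H152.K.exists_prodChart (d := d) hf (chart_mem_atlas (Cm p) (f x))
    (mem_chart_source _ _) hs
  have hqc : Tendsto s (𝓝 v₀) (𝓝 x) := by
    have := hq.continuousAt.tendsto
    rwa [hqx] at this
  have hcq : ContMDiffAt 𝓘(ℂ, Cm d) 𝓘(ℂ, Cm p × Cm d) ω (fun v => c (s v)) v₀ := by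
    have k2 : ContMDiffAt 𝓘(ℂ, Cm (p + d)) 𝓘(ℂ, Cm p × Cm d) ω c (s v₀) := by
      rw [hqx]
      exact (hc.hol x hxs).contMDiffAt (c.open_source.mem_nhds hxs)
    exact ContMDiffAt.comp (g := c) (f := s) v₀ k2 hq
  set θ : Cm d → Cm d := fun v => (c (s v)).2 with hθd
  have hθ : ContDiffAt ℂ ω θ v₀ := contDiffAt_snd.comp v₀ (contMDiffAt_iff_contDiffAt.1 hcq)
  have hθ0 : θ v₀ = (c x).2 := by rw [hθd]; simp only; rw [hqx]
  have hqe : ∀ᶠ v in 𝓝 v₀, s v = c.symm ((c x).1, θ v) := by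
    filter_upwards [hqc.eventually (c.open_source.mem_nhds hxs), hqf] with v k4 k5
    have k6 : c (s v) = ((c x).1, (c (s v)).2) := by
      refine Prod.ext ?_ rfl
      rw [(hc.fst _ k4).2, (hc.fst _ hxs).2, k5]
    show s v = c.symm ((c x).1, (c (s v)).2)
    rw [← k6, c.left_inv k4]
  have k2 : c.symm ((c x).1, (c x).2) = x := c.left_inv hxs
  have hβs : ContDiffAt ℂ ω (fun v => β (c.symm ((c x).1, v))) (θ v₀) := by
    rw [hθ0]
    have k3 := ContMDiffAt.comp (g := β) (f := fun v => c.symm ((c x).1, v)) (c x).2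
      (by rw [k2]; exact hβ) (H364.TD.slice_hol hc hxs)
    exact contMDiffAt_iff_contDiffAt.1 k3
  have hus : ∀ j, ContDiffAt ℂ ω (fun v => u j (c.symm ((c x).1, v))) (θ v₀) := by
    intro j
    rw [hθ0]
    have k3 := ContMDiffAt.comp (g := u j) (f := fun v => c.symm ((c x).1, v)) (c x).2
      (by rw [k2]; exact hu j) (H364.TD.slice_hol hc hxs)
    exact contMDiffAt_iff_contDiffAt.1 k3
  have h1 : (fun v => β (s v)) =ᶠ[𝓝 v₀] fun v => β (c.symm ((c x).1, θ v)) := by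
    filter_upwards [hqe] with v hv
    rw [← hv]
  have h1' : ∀ j, (fun v => u j (s v)) =ᶠ[𝓝 v₀] fun v => u j (c.symm ((c x).1, θ v)) := by
    intro j
    filter_upwards [hqe] with v hv
    rw [← hv]
  rw [xcoef_congr m c' h1 h1', xcoef_comp m c' (h := fun v => β (c.symm ((c x).1, v)))
    (u := fun j v => u j (c.symm ((c x).1, v))) (φ := θ)
    (hβs.differentiableAt (by simp)) (fun j => (hus j).differentiableAt (by simp))
    (hθ.differentiableAt (by simp))] at hm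
  have hdet : (fderiv ℂ θ v₀).det ≠ 0 := left_ne_zero_of_mul hm
  have hsurj : LinearMap.range (fderiv ℂ θ v₀ : Cm d →ₗ[ℂ] Cm d) = ⊤ := by
    have h2 : IsUnit (LinearMap.det (fderiv ℂ θ v₀ : Cm d →ₗ[ℂ] Cm d)) :=
      isUnit_iff_ne_zero.2 hdet
    exact (LinearMap.isUnit_iff_range_eq_top _).1 ((LinearMap.isUnit_iff_isUnit_det _).2 h2)
  have hmap : map θ (𝓝 v₀) = 𝓝 (θ v₀) :=
    (hθ.hasStrictFDerivAt (by simp)).map_nhds_eq_of_surj hsurj
  have h3 : θ '' {v | P v ∧ s v = c.symm ((c x).1, θ v)} ∈ 𝓝 (c x).2 := by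
    rw [← hθ0, ← hmap]
    exact image_mem_map (hP.and hqe)
  have hcc : Tendsto (fun z => (c z).2) (𝓝 x) (𝓝 (c x).2) :=
    (continuous_snd.tendsto _).comp (c.continuousAt hxs).tendsto
  filter_upwards [hcc.eventually h3, c.open_source.mem_nhds hxs] with z hz hzs hfz
  obtain ⟨v, ⟨hv1, hv2⟩, hv3⟩ := hz
  refine ⟨v, hv1, ?_⟩
  rw [hv2, hv3]
  have h4 : ((c x).1, (c z).2) = c z := by
    refine Prod.ext ?_ rfl
    show (c x).1 = (c z).1
    rw [(hc.fst _ hxs).2, (hc.fst _ hzs).2, hfz]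
  rw [h4, c.left_inv hzs]

/-- A local logarithm. -/
theorem exists_log {u : X → ℂ} {x : X} (hu : HolV (Cm (p + d)) u x) (h0 : u x ≠ 0) :
    ∃ ℓ : X → ℂ, HolV (Cm (p + d)) ℓ x ∧ ∀ᶠ z in 𝓝 x, Complex.exp (ℓ z) = u z := by
  have h1 : ContDiffAt ℂ ω (fun w : ℂ => Complex.log (w / u x) + Complex.log (u x)) (u x) := by
    refine ContDiffAt.add ?_ contDiffAt_const
    have h2 : ContDiffAt ℂ ω (fun w : ℂ => w / u x) (u x) := contDiffAt_id.div_const _
    have h3 : u x / u x ∈ Complex.slitPlane := by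
      rw [div_self h0]
      exact Complex.one_mem_slitPlane
    exact ContDiffAt.comp (g := Complex.log) (f := fun w : ℂ => w / u x) (u x)
      (Complex.contDiffAt_log h3) h2
  refine ⟨fun z => Complex.log (u z / u x) + Complex.log (u x), HolV.comp_contDiff h1 hu, ?_⟩
  filter_upwards [hu.continuousAt.eventually_ne h0] with z hz
  rw [Complex.exp_add, Complex.exp_log (div_ne_zero hz h0), Complex.exp_log h0,
    div_mul_cancel₀ _ h0]

end Geo

/-- **MX (ii).** -/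
theorem mixRank : MixRankStmt := by
  classical
  intro p d n q r X Y _ _ _ _ _ _ _ _ V _ _ _ T f S Q ι κ U π L 𝒟 a W u hd hf hSc hP hA hD hne
    hUF y hy hX
  obtain ⟨i, hyi, W', hW', s, v₀, hs, hfs, hsD, hrk⟩ := hX
  have hfx : f (s v₀) = y := hfs.self_of_nhds
  obtain ⟨k, hyk⟩ := (hUF.cover y).1 hy
  have h𝒟c : ∀ D ∈ 𝒟, IsClosed D := fun D hD' => (hD D hD').1
  obtain ⟨e₀⟩ := exists_e₀ p d
  -- proportional units
  have h1 : ∀ j, ∃ c : ℂ, c ≠ 0 ∧ ∀ z, f z = y → (∀ D ∈ 𝒟, z ∉ D) → W' j z = c * u k j z := by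
    intro j
    refine H969.TL.unit_unique (E := Cm (p + d)) (E' := Cm p) (fun x => hf x) e₀
      (fun x hx => hP.submersive x (by rw [hx]; exact hy)) (hP.connected y hy).isPreconnected
      (hP.proper {y} isCompact_singleton (singleton_subset_iff.2 hy)) hD
      (fun D hD' => hne D hD' y hy) (hW' j) ((hUF.unit k j).at hyk)
  choose C hC0 hC using h1
  have hsc : Tendsto s (𝓝 v₀) (𝓝 (s v₀)) := hs.continuousAt
  have hoff : ∀ᶠ z in 𝓝 (s v₀), ∀ D ∈ 𝒟, z ∉ D :=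
    (Finset.eventually_all 𝒟).2 fun D hD' => (h𝒟c D hD').isOpen_compl.mem_nhds (hsD D hD')
  have huh : ∀ j, HolV (Cm (p + d)) (u k j) (s v₀) ∧ u k j (s v₀) ≠ 0 := fun j =>
    (hUF.unit k j).hol h𝒟c (by rw [hfx]; exact hyk) hsD
  have hus : ∀ j, ContDiffAt ℂ ω (fun v => u k j (s v)) v₀ := fun j =>
    contMDiffAt_iff_contDiffAt.1 (ContMDiffAt.comp (g := u k j) (f := s) v₀ (huh j).1 hs)
  have hr' : ∀ β, L i (s v₀) β → XRankAt r (fun v => β (s v)) (fun j v => u k j (s v)) v₀ := by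
    intro β hβ
    refine xRankAt_const hC0 hus (xRankAt_congr EventuallyEq.rfl (fun j => ?_) (hrk β hβ))
    filter_upwards [hfs, hsc.eventually hoff] with v h3 h4
    exact hC j _ h3 h4
  have hxi : f (s v₀) ∈ U i := by rw [hfx]; exact hyi
  have hβs : ∀ β, L i (s v₀) β → ContDiffAt ℂ ω (fun v => β (s v)) v₀ := fun β hβ =>
    contMDiffAt_iff_contDiffAt.1 (ContMDiffAt.comp (g := β) (f := s) v₀
      (hA.liftHol i _ β hβ) hs)
  obtain ⟨β₀, hβ₀⟩ := hA.lift i (s v₀) hxi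
  have hxS : f (s v₀) ∉ S := by rw [hfx]; exact hy
  have hfs' : ∀ᶠ v in 𝓝 v₀, f (s v) = f (s v₀) := by rw [hfx]; exact hfs
  have hfull : ∀ l : V →L[ℂ] ℂ,
      Rel (fun v => β₀ (s v)) (fun j v => u k j (s v)) v₀ l 0 → l = 0 := by
    intro l hl
    have h2 : ∀ᶠ v in 𝓝 v₀, l (β₀ (s v)) = l (β₀ (s v₀)) := by
      refine const_near (k := fun v => l (β₀ (s v)))
        (l.contDiff.contDiffAt.comp v₀ (hβs β₀ hβ₀)) ?_
      filter_upwards [hl, (hβs β₀ hβ₀).eventually (by simp)] with v h3 h4 ξ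
      have h5 := h3 ξ
      have h6 : HasFDerivAt (fun v => l (β₀ (s v))) (l.comp (fderiv ℂ (fun v => β₀ (s v)) v)) v :=
        l.hasFDerivAt.comp v (h4.differentiableAt (by simp)).hasFDerivAt
      rw [h6.fderiv]
      unfold ent at h5
      simpa using h5
    obtain ⟨m, c, h0, -⟩ := hr' β₀ hβ₀
    refine hA.full i (s v₀) β₀ hβ₀ l ?_
    filter_upwards [slice_open_x hf (hP.submersive _ hxS) (hA.liftHol i _ β₀ hβ₀)
      (fun j => (huh j).1) hs rfl hfs' h0 h2] with z hz hfz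
    obtain ⟨v, hv1, hv2⟩ := hz hfz
    rw [← hv2]
    exact hv1
  obtain ⟨J, hJ⟩ := exists_min _ _ _ hfull
  refine ⟨J.card, fun j => J.orderEmbOfFin rfl j, (i, k), ⟨hyi, hyk⟩, s, v₀, hs, hfs, ?_, ?_⟩
  · have h2 := fun j => exists_log (huh (J.orderEmbOfFin rfl j)).1 (huh (J.orderEmbOfFin rfl j)).2
    choose ℓ hℓ hℓe using h2
    exact ⟨fun z => mkx (β₀ z) (WithLp.toLp 2 fun j => ℓ j z), by
      show f (s v₀) ∈ W k
      rw [hfx]
      exact hyk, hsD, β₀, ℓ, hβ₀, fun j => ⟨hℓ j, hℓe j⟩, fun z => rfl⟩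
  · rintro b ⟨-, -, β, ℓ, hβ, hℓ, hbe⟩
    obtain ⟨G, c₀, -, hG⟩ := hA.change i i (s v₀) hxi hxi β₀ β hβ₀ hβ
    have hJ' : IsMin J (fun v => β (s v)) (fun j v => u k j (s v)) v₀ := by
      refine hJ.map (hβs β₀ hβ₀) G c₀ ?_
      filter_upwards [hsc.eventually hG, hfs'] with v h3 h4
      exact h3 h4
    have h2 := mix_local (q' := J.card) (hβs β hβ) hJ' (hr' β hβ)
      (σ := fun j => J.orderEmbOfFin rfl j) (J.orderEmbOfFin rfl).injective (fun j => by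
        have h3 := J.range_orderEmbOfFin rfl
        rw [← Finset.mem_coe, ← h3]
        exact Iff.rfl) (ℓ := fun j v => ℓ j (s v)) (fun j =>
        contMDiffAt_iff_contDiffAt.1 (ContMDiffAt.comp (g := ℓ j) (f := s) v₀ (hℓ j).1 hs))
      (fun j => hsc.eventually (hℓ j).2)
    have h3 : (fun v => b (s v)) = fun v =>
        (mkx (β (s v)) (WithLp.toLp 2 fun j => ℓ j (s v)) : Vx V J.card) := by
      funext v
      exact hbe _
    have h4 : b = fun z => (mkx (β z) (WithLp.toLp 2 fun j => ℓ j z) : Vx V J.card) := by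
      funext z
      exact hbe z
    subst h4
    exact h2

end Vale.Agent.P281.H615.UL
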