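import Vale.Agent.P281.H511.UL.Spec
import Vale.Agent.P281.H969.TL.Rank
import Vale.Agent.P281.H364.TD.Rank

/-!
# P281, project T-UL (helper615), block OX: the mixed rank is an open condition
-/

open Set Filter Metric Vale.Agent.P281
open Vale.Agent.P281.H64 (Cm IsProperFibration)
open Vale.Agent.P281.H713 Vale.Agent.P281.MF
open Vale.Agent.P281.H511.UL
open Vale.Agent.P281.H969.TL (IsUnitAt IsUnitOn)
open scoped Topology ContDiff Manifold

set_option linter.unusedSectionVars false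

noncomputable section

namespace Vale.Agent.P281.H615.UL

section Calc

variable {d q : ℕ} {V : Type} [NormedAddCommGroup V] [InnerProductSpace ℂ V]
  [FiniteDimensional ℂ V]

/-- the entries -/
def ent (l : V →L[ℂ] ℂ) (c : Fin q → ℂ) (h : (Fin d → ℂ) → V) (u : Fin q → (Fin d → ℂ) → ℂ)
    (v ξ : Fin d → ℂ) : ℂ :=
  l (fderiv ℂ h v ξ) + ∑ j, c j * (fderiv ℂ (u j) v ξ / u j v)

theorem xcoef_eq (m : Fin d → (V →L[ℂ] ℂ)) (c : Fin d → Fin q → ℂ) (h : (Fin d → ℂ) → V)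
    (u : Fin q → (Fin d → ℂ) → ℂ) (v : Fin d → ℂ) :
    xcoef m c h u v = (Matrix.of fun b k => ent (m b) (c b) h u v (bs k)).det := rfl

theorem ent_sum (l : V →L[ℂ] ℂ) (c : Fin q → ℂ) (h : (Fin d → ℂ) → V)
    (u : Fin q → (Fin d → ℂ) → ℂ) (v ξ : Fin d → ℂ) :
    ent l c h u v ξ = ∑ k, ξ k * ent l c h u v (bs k) := by
  unfold ent
  rw [fd_sum, map_sum]
  have h1 : ∀ j, fderiv ℂ (u j) v ξ = ∑ k, ξ k • fderiv ℂ (u j) v (bs k) := fun j => fd_sum _ _
  simp only [h1, map_smul, smul_eq_mul, Finset.sum_div, Finset.mul_sum, mul_add,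
    Finset.sum_add_distrib]
  congr 1
  rw [Finset.sum_comm]
  refine Finset.sum_congr rfl fun k _ => Finset.sum_congr rfl fun j _ => ?_
  ring

theorem xcoef_congr (m : Fin d → (V →L[ℂ] ℂ)) (c : Fin d → Fin q → ℂ) {h h' : (Fin d → ℂ) → V}
    {u u' : Fin q → (Fin d → ℂ) → ℂ} {v : Fin d → ℂ} (hh : h =ᶠ[𝓝 v] h')
    (hu : ∀ j, u j =ᶠ[𝓝 v] u' j) : xcoef m c h u v = xcoef m c h' u' v := by
  rw [xcoef_eq, xcoef_eq]
  unfold ent
  rw [hh.fderiv_eq]
  simp only [(hu _).fderiv_eq, (hu _).self_of_nhds]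

/-- multiplication of the units by constants -/
theorem xcoef_const (m : Fin d → (V →L[ℂ] ℂ)) (c : Fin d → Fin q → ℂ) (h : (Fin d → ℂ) → V)
    {u : Fin q → (Fin d → ℂ) → ℂ} {v : Fin d → ℂ} {C : Fin q → ℂ} (hC : ∀ j, C j ≠ 0)
    (hu : ∀ j, DifferentiableAt ℂ (u j) v) :
    xcoef m c h (fun j w => C j * u j w) v = xcoef m c h u v := by
  rw [xcoef_eq, xcoef_eq]
  unfold ent
  have h1 : ∀ j ξ, fderiv ℂ (fun w => C j * u j w) v ξ / (C j * u j v) =
      fderiv ℂ (u j) v ξ / u j v := by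
    intro j ξ
    rw [((hu j).hasFDerivAt.const_mul (C j)).fderiv]
    show C j * fderiv ℂ (u j) v ξ / (C j * u j v) = _
    rw [mul_div_mul_left _ _ (hC j)]
  simp only [h1]

theorem xcoef_map (m : Fin d → (V →L[ℂ] ℂ)) (c : Fin d → Fin q → ℂ) {h : (Fin d → ℂ) → V}
    (u : Fin q → (Fin d → ℂ) → ℂ) {v : Fin d → ℂ} (hh : DifferentiableAt ℂ h v)
    (C : V →L[ℂ] V) (c₀ : V) :
    xcoef m c (fun w => C (h w) + c₀) u v = xcoef (fun a => (m a).comp C) c h u v := by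
  rw [xcoef_eq, xcoef_eq]
  unfold ent
  have h1 : HasFDerivAt (fun u => C (h u) + c₀) (C.comp (fderiv ℂ h v)) v :=
    (C.hasFDerivAt.comp v hh.hasFDerivAt).add_const c₀
  rw [h1.fderiv]
  rfl

theorem xcoef_comp (m : Fin d → (V →L[ℂ] ℂ)) (c : Fin d → Fin q → ℂ) {h : (Fin d → ℂ) → V}
    {u : Fin q → (Fin d → ℂ) → ℂ} {φ : (Fin d → ℂ) → (Fin d → ℂ)} {v : Fin d → ℂ}
    (hh : DifferentiableAt ℂ h (φ v)) (hu : ∀ j, DifferentiableAt ℂ (u j) (φ v))
    (hφ : DifferentiableAt ℂ φ v) :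
    xcoef m c (fun w => h (φ w)) (fun j w => u j (φ w)) v =
      (fderiv ℂ φ v).det * xcoef m c h u (φ v) := by
  rw [xcoef_eq, xcoef_eq, ← det_fd (fderiv ℂ φ v), mul_comm, ← Matrix.det_mul]
  congr 1
  have h1 : HasFDerivAt (fun u => h (φ u)) ((fderiv ℂ h (φ v)).comp (fderiv ℂ φ v)) v :=
    hh.hasFDerivAt.comp v hφ.hasFDerivAt
  have h2 : ∀ j, HasFDerivAt (fun w => u j (φ w)) ((fderiv ℂ (u j) (φ v)).comp (fderiv ℂ φ v)) v :=
    fun j => (hu j).hasFDerivAt.comp v hφ.hasFDerivAt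
  ext a b
  rw [Matrix.of_apply, Matrix.mul_apply]
  have h3 : ent (m a) (c a) (fun w => h (φ w)) (fun j w => u j (φ w)) v (bs b) =
      ent (m a) (c a) h u (φ v) (fderiv ℂ φ v (bs b)) := by
    unfold ent
    rw [h1.fderiv]
    simp only [(h2 _).fderiv]
    rfl
  rw [h3, ent_sum]
  refine Finset.sum_congr rfl fun k _ => ?_
  rw [Matrix.of_apply, Matrix.of_apply, mul_comm]

theorem ent_joint {P : Type*} [NormedAddCommGroup P] [NormedSpace ℂ P]
    (l : V →L[ℂ] ℂ) (c : Fin q → ℂ) {B : P × (Fin d → ℂ) → V} {w : Fin q → P × (Fin d → ℂ) → ℂ}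
    {x₀ : P × (Fin d → ℂ)} (hB : ContDiffAt ℂ ω B x₀) (hw : ∀ j, ContDiffAt ℂ ω (w j) x₀)
    (hw0 : ∀ j, w j x₀ ≠ 0) (ξ : Fin d → ℂ) :
    ContDiffAt ℂ ω (fun x : P × (Fin d → ℂ) =>
      ent l c (fun v => B (x.1, v)) (fun j v => w j (x.1, v)) x.2 ξ) x₀ := by
  have h1 : (fun x : P × (Fin d → ℂ) =>
      ent l c (fun v => B (x.1, v)) (fun j v => w j (x.1, v)) x.2 ξ) =ᶠ[𝓝 x₀]
      fun x => l (fderiv ℂ B x ((0 : P), ξ)) +
        ∑ j, c j * (fderiv ℂ (w j) x ((0 : P), ξ) / w j x) := by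
    filter_upwards [hB.eventually (by simp),
      (Filter.eventually_all).2 fun j => (hw j).eventually (by simp)] with x hx hx'
    have h2 : HasFDerivAt (fun u : Fin d → ℂ => (x.1, u))
        (ContinuousLinearMap.inr ℂ P (Fin d → ℂ)) x.2 := hasFDerivAt_prodMk_right _ _
    have h3 : HasFDerivAt (fun u : Fin d → ℂ => B (x.1, u))
        ((fderiv ℂ B x).comp (ContinuousLinearMap.inr ℂ P (Fin d → ℂ))) x.2 := by
      have h4 : HasFDerivAt B (fderiv ℂ B x) (x.1, x.2) :=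
        (hx.differentiableAt (by simp)).hasFDerivAt
      exact h4.comp x.2 h2
    have h5 : ∀ j, HasFDerivAt (fun u : Fin d → ℂ => w j (x.1, u))
        ((fderiv ℂ (w j) x).comp (ContinuousLinearMap.inr ℂ P (Fin d → ℂ))) x.2 := by
      intro j
      have h4 : HasFDerivAt (w j) (fderiv ℂ (w j) x) (x.1, x.2) :=
        ((hx' j).differentiableAt (by simp)).hasFDerivAt
      exact h4.comp x.2 h2
    unfold ent
    rw [h3.fderiv]
    simp only [(h5 _).fderiv]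
    rfl
  refine ContDiffAt.congr_of_eventuallyEq ?_ h1
  refine (l.contDiff.contDiffAt.comp x₀ (contDiffAt_fd hB _)).add ?_
  refine ContDiffAt.sum fun j _ => ?_
  exact contDiffAt_const.mul ((contDiffAt_fd (hw j) _).div (hw j) (hw0 j))

theorem xcoef_joint {P : Type*} [NormedAddCommGroup P] [NormedSpace ℂ P]
    (m : Fin d → (V →L[ℂ] ℂ)) (c : Fin d → Fin q → ℂ) {B : P × (Fin d → ℂ) → V}
    {w : Fin q → P × (Fin d → ℂ) → ℂ} {x₀ : P × (Fin d → ℂ)} (hB : ContDiffAt ℂ ω B x₀)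
    (hw : ∀ j, ContDiffAt ℂ ω (w j) x₀) (hw0 : ∀ j, w j x₀ ≠ 0) :
    ContDiffAt ℂ ω (fun x : P × (Fin d → ℂ) =>
      xcoef m c (fun v => B (x.1, v)) (fun j v => w j (x.1, v)) x.2) x₀ := by
  simp only [xcoef_eq]
  exact contDiffAt_det fun a b => ent_joint (m a) (c a) hB hw hw0 _

theorem xcoef_contDiffAt (m : Fin d → (V →L[ℂ] ℂ)) (c : Fin d → Fin q → ℂ)
    {h : (Fin d → ℂ) → V} {u : Fin q → (Fin d → ℂ) → ℂ} {v : Fin d → ℂ} (hh : ContDiffAt ℂ ω h v)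
    (hu : ∀ j, ContDiffAt ℂ ω (u j) v) (hu0 : ∀ j, u j v ≠ 0) :
    ContDiffAt ℂ ω (xcoef m c h u) v := by
  have h1 := xcoef_joint (P := ℂ) m c (B := fun x => h x.2) (w := fun j x => u j x.2)
    (x₀ := ((0 : ℂ), v)) (hh.comp ((0 : ℂ), v) contDiffAt_snd)
    (fun j => (hu j).comp ((0 : ℂ), v) contDiffAt_snd) hu0
  have h2 : ContDiffAt ℂ ω (fun v : Fin d → ℂ => ((0 : ℂ), v)) v := by fun_prop
  exact h1.comp v h2

/-! ### The rank -/

theorem xRankAt_congr {r : ℕ} {h h' : (Fin d → ℂ) → V}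
    {u u' : Fin q → (Fin d → ℂ) → ℂ} {v : Fin d → ℂ} (hh : h =ᶠ[𝓝 v] h')
    (hu : ∀ j, u j =ᶠ[𝓝 v] u' j) (H : XRankAt r h u v) : XRankAt r h' u' v := by
  obtain ⟨m, c, h0, hs⟩ := H
  have h1 : ∀ m : Fin d → (V →L[ℂ] ℂ), ∀ c : Fin d → Fin q → ℂ,
      xcoef m c h u =ᶠ[𝓝 v] xcoef m c h' u' := by
    intro m c
    filter_upwards [eventually_eventually_nhds.2 hh,
      (Filter.eventually_all).2 fun j => eventually_eventually_nhds.2 (hu j)] with w h2 h3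
    exact xcoef_congr m c h2 h3
  refine ⟨m, c, ?_, ?_⟩
  · rw [← (h1 _ _).self_of_nhds]
    exact h0
  · convert hs using 4 with ξ k
    refine Filter.EventuallyEq.fderiv_eq ?_
    filter_upwards [h1 (m k.succ) (c k.succ), h1 (m 0) (c 0)] with w h2 h3
    rw [h2, h3]

theorem xRankAt_const {r : ℕ} {h : (Fin d → ℂ) → V} {u : Fin q → (Fin d → ℂ) → ℂ}
    {v : Fin d → ℂ} {C : Fin q → ℂ} (hC : ∀ j, C j ≠ 0) (hu : ∀ j, ContDiffAt ℂ ω (u j) v)
    (H : XRankAt r h (fun j w => C j * u j w) v) : XRankAt r h u v := by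
  obtain ⟨m, c, h0, hs⟩ := H
  have h1 : ∀ m : Fin d → (V →L[ℂ] ℂ), ∀ c : Fin d → Fin q → ℂ,
      xcoef m c h (fun j w => C j * u j w) =ᶠ[𝓝 v] xcoef m c h u := by
    intro m c
    filter_upwards [(Filter.eventually_all).2 fun j => (hu j).eventually (by simp)] with w h2
    exact xcoef_const m c h hC fun j => (h2 j).differentiableAt (by simp)
  refine ⟨m, c, ?_, ?_⟩
  · rw [← (h1 _ _).self_of_nhds]
    exact h0
  · convert hs using 4 with ξ k
    refine Filter.EventuallyEq.fderiv_eq ?_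
    filter_upwards [h1 (m k.succ) (c k.succ), h1 (m 0) (c 0)] with w h2 h3
    rw [h2, h3]

theorem xRankAt_map {r : ℕ} {h : (Fin d → ℂ) → V} {u : Fin q → (Fin d → ℂ) → ℂ}
    {v : Fin d → ℂ} (hh : ContDiffAt ℂ ω h v) (G : V ≃L[ℂ] V) (c₀ : V)
    (H : XRankAt r h u v) : XRankAt r (fun w => G (h w) + c₀) u v := by
  obtain ⟨m, c, h0, hs⟩ := H
  have h1 : ∀ m : Fin d → (V →L[ℂ] ℂ), ∀ c : Fin d → Fin q → ℂ,
      xcoef (fun a => (m a).comp (G.symm : V →L[ℂ] V)) c (fun w => G (h w) + c₀) u =ᶠ[𝓝 v]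
        xcoef m c h u := by
    intro m c
    filter_upwards [hh.eventually (by simp)] with w h2
    have h3 := xcoef_map (fun a => (m a).comp (G.symm : V →L[ℂ] V)) c u
      (h2.differentiableAt (by simp)) (G : V →L[ℂ] V) c₀
    refine h3.trans ?_
    congr 1
    funext a
    ext x
    simp
  refine ⟨fun k a => (m k a).comp (G.symm : V →L[ℂ] V), c, ?_, ?_⟩
  · rw [(h1 _ _).self_of_nhds]
    exact h0
  · convert hs using 4 with ξ k
    refine Filter.EventuallyEq.fderiv_eq ?_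
    filter_upwards [h1 (m k.succ) (c k.succ), h1 (m 0) (c 0)] with w h2 h3
    rw [h2, h3]

/-- A change of coordinates. -/
theorem xRankAt_of_comp {r : ℕ} {h : (Fin d → ℂ) → V} {u : Fin q → (Fin d → ℂ) → ℂ}
    {φ : (Fin d → ℂ) → (Fin d → ℂ)} {v : Fin d → ℂ} (hh : ContDiffAt ℂ ω h (φ v))
    (hu : ∀ j, ContDiffAt ℂ ω (u j) (φ v)) (hu0 : ∀ j, u j (φ v) ≠ 0)
    (hφ : ContDiffAt ℂ ω φ v)
    (H : XRankAt r (fun w => h (φ w)) (fun j w => u j (φ w)) v) : XRankAt r h u (φ v) := by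
  obtain ⟨m, c, h0, hs⟩ := H
  have h1 : ∀ m : Fin d → (V →L[ℂ] ℂ), ∀ c : Fin d → Fin q → ℂ,
      ∀ᶠ w in 𝓝 v, xcoef m c (fun w => h (φ w)) (fun j w => u j (φ w)) w =
        (fderiv ℂ φ w).det * xcoef m c h u (φ w) := by
    intro m c
    filter_upwards [hφ.continuousAt.eventually (hh.eventually (by simp)),
      (Filter.eventually_all).2 fun j => hφ.continuousAt.eventually ((hu j).eventually (by simp)),
      hφ.eventually (by simp)] with w h2 h3 h4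
    exact xcoef_comp m c (h2.differentiableAt (by simp))
      (fun j => (h3 j).differentiableAt (by simp)) (h4.differentiableAt (by simp))
  rw [(h1 _ _).self_of_nhds] at h0
  have hdet : (fderiv ℂ φ v).det ≠ 0 := left_ne_zero_of_mul h0
  have hx0 : xcoef (m 0) (c 0) h u (φ v) ≠ 0 := right_ne_zero_of_mul h0
  have hdet' : ∀ᶠ w in 𝓝 v, (fderiv ℂ φ w).det ≠ 0 := by
    have h2 : ContinuousAt (fderiv ℂ φ) v :=
      (hφ.fderiv_right (m := ω) (by simp)).continuousAt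
    have h3 : ContinuousAt (fun w => (fderiv ℂ φ w).det) v :=
      (ContinuousLinearMap.continuous_det).continuousAt.comp h2
    exact h3.eventually_ne hdet
  refine ⟨m, c, hx0, fun η => ?_⟩
  obtain ⟨ξ, hξ⟩ := hs η
  refine ⟨fderiv ℂ φ v ξ, ?_⟩
  rw [← hξ]
  funext k
  have hq : DifferentiableAt ℂ (fun w => xcoef (m k.succ) (c k.succ) h u w /
      xcoef (m 0) (c 0) h u w) (φ v) :=
    ((xcoef_contDiffAt _ _ hh hu hu0).div (xcoef_contDiffAt _ _ hh hu hu0) hx0).differentiableAt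
      (by simp)
  have h2 : (fun w => xcoef (m k.succ) (c k.succ) (fun w => h (φ w)) (fun j w => u j (φ w)) w /
      xcoef (m 0) (c 0) (fun w => h (φ w)) (fun j w => u j (φ w)) w) =ᶠ[𝓝 v]
      (fun w => xcoef (m k.succ) (c k.succ) h u w / xcoef (m 0) (c 0) h u w) ∘ φ := by
    filter_upwards [h1 (m k.succ) (c k.succ), h1 (m 0) (c 0), hdet'] with w h3 h4 h5
    rw [h3, h4, mul_div_mul_left _ _ h5]
    rfl
  have h3 := h2.fderiv_eq (𝕜 := ℂ)
  rw [(hq.hasFDerivAt.comp v (hφ.differentiableAt (by simp)).hasFDerivAt).fderiv] at h3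
  exact (congrArg (fun L : (Fin d → ℂ) →L[ℂ] ℂ => L ξ) h3).symm

/-- The rank is open in the parameter. -/
theorem xRankAt_open {P : Type} [NormedAddCommGroup P] [NormedSpace ℂ P] {r : ℕ}
    {B : P × (Fin d → ℂ) → V} {w : Fin q → P × (Fin d → ℂ) → ℂ} {t₀ : P} {v₀ : Fin d → ℂ}
    (hB : ContDiffAt ℂ ω B (t₀, v₀)) (hw : ∀ j, ContDiffAt ℂ ω (w j) (t₀, v₀))
    (hw0 : ∀ j, w j (t₀, v₀) ≠ 0)
    (H : XRankAt r (fun v => B (t₀, v)) (fun j v => w j (t₀, v)) v₀) :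
    ∀ᶠ t in 𝓝 t₀, XRankAt r (fun v => B (t, v)) (fun j v => w j (t, v)) v₀ := by
  obtain ⟨m, c, h0, hs⟩ := H
  let F : Fin (r + 1) → P × (Fin d → ℂ) → ℂ := fun k x =>
    xcoef (m k) (c k) (fun v => B (x.1, v)) (fun j v => w j (x.1, v)) x.2
  have hF : ∀ k, ContDiffAt ℂ ω (F k) (t₀, v₀) := fun k => xcoef_joint (m k) (c k) hB hw hw0
  let Q : Fin r → P × (Fin d → ℂ) → ℂ := fun k x => F k.succ x / F 0 x
  have hQ : ∀ k, ContDiffAt ℂ ω (Q k) (t₀, v₀) := fun k => (hF k.succ).div (hF 0) h0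
  have hfd : ∀ k, ∀ᶠ x in 𝓝 (t₀, v₀), fderiv ℂ (fun v => Q k (x.1, v)) x.2 =
      (fderiv ℂ (Q k) x).comp (ContinuousLinearMap.inr ℂ P (Fin d → ℂ)) := by
    intro k
    filter_upwards [(hQ k).eventually (by simp)] with x hx
    have h2 : HasFDerivAt (fun u : Fin d → ℂ => (x.1, u))
        (ContinuousLinearMap.inr ℂ P (Fin d → ℂ)) x.2 := hasFDerivAt_prodMk_right _ _
    have h4 : HasFDerivAt (Q k) (fderiv ℂ (Q k) x) (x.1, x.2) :=
      (hx.differentiableAt (by simp)).hasFDerivAt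
    exact (h4.comp x.2 h2).fderiv
  have ht : Tendsto (fun t : P => (t, v₀)) (𝓝 t₀) (𝓝 (t₀, v₀)) := by
    have : ContinuousAt (fun t : P => (t, v₀)) t₀ := by fun_prop
    exact this
  let A : Fin r → P → ((Fin d → ℂ) →L[ℂ] ℂ) := fun k t =>
    (fderiv ℂ (Q k) (t, v₀)).comp (ContinuousLinearMap.inr ℂ P (Fin d → ℂ))
  let M : P → ((Fin d → ℂ) →L[ℂ] (Fin r → ℂ)) := fun t =>
    ∑ k, (ContinuousLinearMap.single ℂ (fun _ : Fin r => ℂ) k).comp (A k t)
  have hM : ContinuousAt M t₀ := by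
    have h1 : ∀ k, ContinuousAt (A k) t₀ := by
      intro k
      have h2 : ContinuousAt (fderiv ℂ (Q k)) (t₀, v₀) :=
        ((hQ k).fderiv_right (m := ω) (by simp)).continuousAt
      have h3 : ContinuousAt (fun t : P => fderiv ℂ (Q k) (t, v₀)) t₀ :=
        ContinuousAt.comp (g := fderiv ℂ (Q k)) (f := fun t : P => (t, v₀)) h2 ht
      exact h3.clm_comp continuousAt_const
    exact tendsto_finsetSum _ fun k _ => (continuousAt_const.clm_comp (h1 k))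
  have hMA : ∀ t ξ, M t ξ = fun k => A k t ξ := by
    intro t ξ
    funext k
    simp [M, Finset.sum_apply, Pi.single_apply]
  have hMs : ∀ t, (∀ k, fderiv ℂ (fun v => Q k (t, v)) v₀ = A k t) →
      ∀ ξ, (fun k => fderiv ℂ (fun v => Q k (t, v)) v₀ ξ) = M t ξ := by
    intro t h1 ξ
    rw [hMA]
    funext k
    rw [h1 k]
  have h1 : Function.Surjective (M t₀) := by
    intro η
    obtain ⟨ξ, hξ⟩ := hs η
    refine ⟨ξ, ?_⟩
    rw [← hMs t₀ (fun k => (hfd k).self_of_nhds) ξ]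
    exact hξ
  filter_upwards [H969.TL.surj_open (M := M) (z := t₀) hM h1, ht.eventually ((hF 0).continuousAt.eventually_ne h0),
    (Filter.eventually_all).2 fun k => ht.eventually (hfd k)] with t h2 h3 h4
  refine ⟨m, c, h3, fun η => ?_⟩
  obtain ⟨ξ, hξ⟩ := h2 η
  refine ⟨ξ, ?_⟩
  rw [← hMs t h4 ξ] at hξ
  exact hξ

end Calc

section Main

variable {p d n g q r : ℕ} {X Y : Type} [TopologicalSpace X] [T2Space X]
  [ChartedSpace (Cm (p + d)) X] [IsManifold 𝓘(ℂ, Cm (p + d)) ω X] [TopologicalSpace Y] [T2Space Y]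
  [ChartedSpace (Cm p) Y] [IsManifold 𝓘(ℂ, Cm p) ω Y]

/-- The standard frame. -/
theorem exists_e₀ (p d : ℕ) : Nonempty (Cm (p + d) ≃L[ℂ] (Cm p × (Fin d → ℂ))) := by
  refine ⟨ContinuousLinearEquiv.ofFinrankEq ?_⟩
  simp [Module.finrank_prod]

/-- In a product chart, slices through nearby points. -/
theorem slice_nhds {f : X → Y} {χ : OpenPartialHomeomorph Y (Cm p)}
    {c : OpenPartialHomeomorph X (Cm p × Cm d)} (hc : H152.K.IsProd f χ c) {t : Cm p} {w : Cm d}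
    (h : (t, w) ∈ c.target) :
    ContMDiffAt 𝓘(ℂ, Cm d) 𝓘(ℂ, Cm (p + d)) ω (fun v => c.symm (t, v)) w ∧
      ∀ᶠ v in 𝓝 w, f (c.symm (t, v)) = f (c.symm (t, w)) := by
  have h1 := c.map_target h
  have h2 : c (c.symm (t, w)) = (t, w) := c.right_inv h
  have h3 := H364.TD.slice_hol hc h1
  have h4 := H364.TD.slice_fib hc h1
  rw [h2] at h3 h4
  exact ⟨h3, h4⟩

end Main

/-- **OX.** -/
theorem xOpen : XOpenStmt := by
  classical
  intro p d n g q r X Y _ _ _ _ _ _ _ _ T f S Q ι U π L 𝒟 a hd hf hSc hP hA hD hne hfam y hy hX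
  obtain ⟨i, hyi, W, hW, s, v₀, hs, hfs, hsD, hrk⟩ := hX
  have hfx : f (s v₀) = y := hfs.self_of_nhds
  -- the families of units
  have h0 : ∀ j, ∃ (W : Set Y) (u : X → ℂ), IsOpen W ∧ y ∈ W ∧
      IsUnitOn (Cm (p + d)) f 𝒟 (a j) W u := fun j => hfam j y hy
  choose Wn u hWo hyW hu using h0
  have h𝒟c : ∀ D ∈ 𝒟, IsClosed D := fun D hD' => (hD D hD').1
  obtain ⟨e₀⟩ := exists_e₀ p d
  -- proportional units
  have h1 : ∀ j, ∃ c : ℂ, c ≠ 0 ∧ ∀ z, f z = y → (∀ D ∈ 𝒟, z ∉ D) → W j z = c * u j z := by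
    intro j
    refine H969.TL.unit_unique (E := Cm (p + d)) (E' := Cm p) (fun x => hf x) e₀
      (fun x hx => hP.submersive x (by rw [hx]; exact hy)) (hP.connected y hy).isPreconnected
      (hP.proper {y} isCompact_singleton (singleton_subset_iff.2 hy)) hD
      (fun D hD' => hne D hD' y hy) (hW j) ((hu j).at (hyW j))
  choose C hC0 hC using h1
  -- the lift
  have hxi : f (s v₀) ∈ U i := by rw [hfx]; exact hyi
  obtain ⟨β, hβL⟩ := hA.lift i (s v₀) hxi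
  have hβ := hA.liftHol i (s v₀) β hβL
  have hxS : f (s v₀) ∉ S := by rw [hfx]; exact hy
  obtain ⟨c, hxs, hc⟩ := H152.K.exists_prodChart (d := d) hf (chart_mem_atlas (Cm p) y)
    (x := s v₀) (by rw [hfx]; exact mem_chart_source _ y) (hP.submersive _ hxS)
  set χ := chartAt (Cm p) y with hχ
  set t₀ : Cm p := (c (s v₀)).1 with ht₀
  set w₀ : Cm d := (c (s v₀)).2 with hw₀
  have htw : (t₀, w₀) = c (s v₀) := rfl
  have hsc : Tendsto s (𝓝 v₀) (𝓝 (s v₀)) := hs.continuousAt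
  have hcx : ContMDiffAt 𝓘(ℂ, Cm (p + d)) 𝓘(ℂ, Cm p × Cm d) ω c (s v₀) :=
    (hc.hol _ hxs).contMDiffAt (c.open_source.mem_nhds hxs)
  have hcs : ContMDiffAt 𝓘(ℂ, Cm d) 𝓘(ℂ, Cm p × Cm d) ω (fun v => c (s v)) v₀ :=
    ContMDiffAt.comp (g := c) (f := s) v₀ hcx hs
  have hcs' : ContMDiffAt 𝓘(ℂ, Cm p × Cm d) 𝓘(ℂ, Cm (p + d)) ω c.symm (t₀, w₀) :=
    (hc.symm_hol _ (c.map_source hxs)).contMDiffAt (c.open_target.mem_nhds (c.map_source hxs))
  have hback : c.symm (t₀, w₀) = s v₀ := c.left_inv hxs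
  set φ : Cm d → Cm d := fun v => (c (s v)).2 with hφd
  have hφ : ContDiffAt ℂ ω φ v₀ := contDiffAt_snd.comp v₀ (contMDiffAt_iff_contDiffAt.1 hcs)
  have hse : ∀ᶠ v in 𝓝 v₀, s v = c.symm (t₀, φ v) := by
    filter_upwards [hsc.eventually (c.open_source.mem_nhds hxs), hfs] with v k4 k5
    have k6 : c (s v) = (t₀, (c (s v)).2) := by
      refine Prod.ext ?_ rfl
      rw [(hc.fst _ k4).2, ht₀, (hc.fst _ hxs).2, k5, hfx]
    show s v = c.symm (t₀, (c (s v)).2)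
    rw [← k6, c.left_inv k4]
  -- the maps in the chart
  set B : Cm p × Cm d → EuclideanSpace ℂ (Fin g) := fun x => β (c.symm x) with hBd
  set w : Fin q → Cm p × Cm d → ℂ := fun j x => u j (c.symm x) with hwd
  have hB : ContDiffAt ℂ ω B (t₀, w₀) := by
    refine contMDiffAt_iff_contDiffAt.1 (ContMDiffAt.comp (g := β) (f := c.symm) (t₀, w₀) ?_ hcs')
    rw [hback]
    exact hβ
  have huh : ∀ j, HolV (Cm (p + d)) (u j) (s v₀) ∧ u j (s v₀) ≠ 0 := fun j =>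
    (hu j).hol h𝒟c (by rw [hfx]; exact hyW j) hsD
  have hw : ∀ j, ContDiffAt ℂ ω (w j) (t₀, w₀) := by
    intro j
    refine contMDiffAt_iff_contDiffAt.1 (ContMDiffAt.comp (g := u j) (f := c.symm) (t₀, w₀) ?_ hcs')
    rw [hback]
    exact (huh j).1
  have hw0 : ∀ j, w j (t₀, w₀) ≠ 0 := by
    intro j
    show u j (c.symm (t₀, w₀)) ≠ 0
    rw [hback]
    exact (huh j).2
  have hslice : ContDiffAt ℂ ω (fun v : Cm d => (t₀, v)) w₀ := by fun_prop
  have hBs : ContDiffAt ℂ ω (fun v => B (t₀, v)) (φ v₀) := hB.comp w₀ hslice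
  have hws : ∀ j, ContDiffAt ℂ ω (fun v => w j (t₀, v)) (φ v₀) := fun j => (hw j).comp w₀ hslice
  -- the divisors
  have hoff : ∀ᶠ z in 𝓝 (s v₀), ∀ D ∈ 𝒟, z ∉ D :=
    (Finset.eventually_all 𝒟).2 fun D hD' => (h𝒟c D hD').isOpen_compl.mem_nhds (hsD D hD')
  -- the rank in the chart
  have hr1 : XRankAt r (fun v => B (t₀, v)) (fun j v => w j (t₀, v)) (φ v₀) := by
    have h2 : XRankAt r (fun v => B (t₀, φ v)) (fun j v => C j * w j (t₀, φ v)) v₀ := by
      refine xRankAt_congr ?_ (fun j => ?_) (hrk β hβL)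
      · filter_upwards [hse] with v hv
        show β (s v) = β (c.symm (t₀, φ v))
        rw [← hv]
      · filter_upwards [hse, hfs, hsc.eventually hoff] with v hv h3 h4
        show W j (s v) = C j * u j (c.symm (t₀, φ v))
        rw [← hv]
        exact hC j _ h3 h4
    have h3 : XRankAt r (fun v => B (t₀, φ v)) (fun j v => w j (t₀, φ v)) v₀ :=
      xRankAt_const hC0 (fun j => (hws j).comp v₀ hφ) h2
    exact xRankAt_of_comp (h := fun v => B (t₀, v)) (u := fun j v => w j (t₀, v)) hBs hws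
      (fun j => hw0 j) hφ h3
  have hr2 := xRankAt_open hB hw hw0 hr1
  -- nearby fibres
  have hχc : Tendsto χ (𝓝 y) (𝓝 t₀) := by
    have h2 : t₀ = χ y := by rw [ht₀, (hc.fst _ hxs).2, hfx]
    rw [h2]
    exact χ.continuousAt (mem_chart_source _ y)
  have hχt : Tendsto (fun y' => (χ y', w₀)) (𝓝 y) (𝓝 (t₀, w₀)) :=
    hχc.prodMk_nhds tendsto_const_nhds
  have hz : Tendsto (fun y' => c.symm (χ y', w₀)) (𝓝 y) (𝓝 (s v₀)) := by
    have h2 := hcs'.continuousAt.tendsto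
    rw [hback] at h2
    exact h2.comp hχt
  filter_upwards [hχc.eventually hr2, (hA.isOpen i).mem_nhds hyi,
    (Filter.eventually_all).2 fun j => (hWo j).mem_nhds (hyW j),
    χ.open_source.mem_nhds (mem_chart_source _ y),
    hχt.eventually (c.open_target.mem_nhds (c.map_source hxs)), hz.eventually hoff,
    hz.eventually (hA.near i (s v₀) β hβL)] with y' k1 k2 k3 k4 k5 k6 k7
  obtain ⟨k8, k9⟩ := slice_nhds hc k5
  have k10 : f (c.symm (χ y', w₀)) = y' := by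
    obtain ⟨l1, l2⟩ := hc.fst _ (c.map_target k5)
    rw [c.right_inv k5] at l2
    exact χ.injOn l1 k4 l2.symm
  rw [k10] at k9
  refine ⟨i, k2, u, fun j => (hu j).at (k3 j), fun v => c.symm (χ y', v), w₀, k8, k9, k6,
    fun β' hβ' => ?_⟩
  have k11 : f (c.symm (χ y', w₀)) ∈ U i := by rw [k10]; exact k2
  obtain ⟨G, c₀, -, hG⟩ := hA.change i i (c.symm (χ y', w₀)) k11 k11 β β' k7 hβ'
  have hβ2 : ContDiffAt ℂ ω (fun v => B (χ y', v)) w₀ := by
    have l1 := hA.liftHol i _ β k7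
    exact contMDiffAt_iff_contDiffAt.1
      (ContMDiffAt.comp (g := β) (f := fun v => c.symm (χ y', v)) w₀ l1 k8)
  refine xRankAt_congr ?_ (fun j => Filter.EventuallyEq.rfl) (xRankAt_map hβ2 G c₀ k1)
  have hsl : Tendsto (fun v => c.symm (χ y', v)) (𝓝 w₀) (𝓝 (c.symm (χ y', w₀))) :=
    k8.continuousAt
  filter_upwards [hsl.eventually hG, k9] with v l1 l2
  show G (β (c.symm (χ y', v))) + c₀ = β' (c.symm (χ y', v))
  rw [l1 (by rw [l2, k10])]

end Vale.Agent.P281.H615.UL
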