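import Vale.Agent.P281.H615.UL.Open

/-!
# P281, project T-UL (helper615), block MX (ii): the choice of the units and the rank (local part)
-/

open Set Filter Metric Vale.Agent.P281
open Vale.Agent.P281.H713
open Vale.Agent.P281.H64.TU (RankAt)
open Vale.Agent.P281.H511.UL
open scoped Topology ContDiff Manifold

set_option linter.unusedSectionVars false

noncomputable section

namespace Vale.Agent.P281.H615.UL

section Mix

variable {d q : ℕ} {V : Type} [NormedAddCommGroup V] [InnerProductSpace ℂ V]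
  [FiniteDimensional ℂ V]

theorem ent_add (l l' : V →L[ℂ] ℂ) (c c' : Fin q → ℂ) (h : (Fin d → ℂ) → V)
    (u : Fin q → (Fin d → ℂ) → ℂ) (v ξ : Fin d → ℂ) :
    ent (l + l') (c + c') h u v ξ = ent l c h u v ξ + ent l' c' h u v ξ := by
  unfold ent
  simp only [_root_.add_apply, Pi.add_apply, add_mul, Finset.sum_add_distrib]
  ring

theorem ent_smul (a : ℂ) (l : V →L[ℂ] ℂ) (c : Fin q → ℂ) (h : (Fin d → ℂ) → V)
    (u : Fin q → (Fin d → ℂ) → ℂ) (v ξ : Fin d → ℂ) :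
    ent (a • l) (a • c) h u v ξ = a * ent l c h u v ξ := by
  unfold ent
  simp only [_root_.smul_apply, Pi.smul_apply, smul_eq_mul, mul_add, Finset.mul_sum, mul_assoc]

theorem ent_fsum {ι : Type} (s : Finset ι) (a : ι → ℂ) (l : ι → (V →L[ℂ] ℂ))
    (c : ι → Fin q → ℂ) (h : (Fin d → ℂ) → V)
    (u : Fin q → (Fin d → ℂ) → ℂ) (v ξ : Fin d → ℂ) :
    ent (∑ i ∈ s, a i • l i) (∑ i ∈ s, a i • c i) h u v ξ =
      ∑ i ∈ s, a i * ent (l i) (c i) h u v ξ := by
  classical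
  induction s using Finset.induction_on with
  | empty => simp [ent]
  | insert i s hi ih =>
    rw [Finset.sum_insert hi, Finset.sum_insert hi, Finset.sum_insert hi, ent_add, ent_smul, ih]

/-- The closed form with coefficients `l`, `c` vanishes near `v₀`. -/
def Rel (h : (Fin d → ℂ) → V) (u : Fin q → (Fin d → ℂ) → ℂ) (v₀ : Fin d → ℂ)
    (l : V →L[ℂ] ℂ) (c : Fin q → ℂ) : Prop :=
  ∀ᶠ v in 𝓝 v₀, ∀ ξ, ent l c h u v ξ = 0

/-- A function with derivative zero near `v₀` is constant near `v₀`. -/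
theorem const_near {k : (Fin d → ℂ) → ℂ} {v₀ : Fin d → ℂ} (hk : ContDiffAt ℂ ω k v₀)
    (h : ∀ᶠ v in 𝓝 v₀, ∀ ξ, fderiv ℂ k v ξ = 0) : ∀ᶠ v in 𝓝 v₀, k v = k v₀ := by
  obtain ⟨ε, hε, hb⟩ := Metric.eventually_nhds_iff_ball.1 (h.and (hk.eventually (by simp)))
  filter_upwards [ball_mem_nhds v₀ hε] with v hv
  have h1 : DifferentiableOn ℂ k (ball v₀ ε) := fun w hw =>
    ((hb w hw).2.differentiableAt (by simp)).differentiableWithinAt
  refine (convex_ball v₀ ε).is_const_of_fderivWithin_eq_zero (𝕜 := ℂ) h1 (fun w hw => ?_) hv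
    (mem_ball_self hε)
  rw [fderivWithin_of_isOpen isOpen_ball hw]
  ext ξ
  exact (hb w hw).1 ξ

/-- `J` is a minimal set of units. -/
def IsMin (J : Finset (Fin q)) (h : (Fin d → ℂ) → V) (u : Fin q → (Fin d → ℂ) → ℂ)
    (v₀ : Fin d → ℂ) : Prop :=
  (∀ l c, (∀ j ∉ J, c j = 0) → Rel h u v₀ l c → l = 0 ∧ c = 0) ∧
    ∀ (l : V →L[ℂ] ℂ) (c : Fin q → ℂ), ∃ (l' : V →L[ℂ] ℂ) (c' : Fin q → ℂ),
      (∀ j ∉ J, c' j = 0) ∧ ∀ᶠ v in 𝓝 v₀, ∀ ξ, ent l c h u v ξ = ent l' c' h u v ξ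

/-- **A minimal set of units.** -/
theorem exists_min (h : (Fin d → ℂ) → V) (u : Fin q → (Fin d → ℂ) → ℂ) (v₀ : Fin d → ℂ)
    (hfull : ∀ l : V →L[ℂ] ℂ, Rel h u v₀ l 0 → l = 0) :
    ∃ J : Finset (Fin q), IsMin J h u v₀ := by
  classical
  let P : Finset (Fin q) → Prop := fun J =>
    ∀ (l : V →L[ℂ] ℂ) (c : Fin q → ℂ), (∀ j ∉ J, c j = 0) → Rel h u v₀ l c → l = 0 ∧ c = 0
  have h0 : P ∅ := by
    intro l c hc hr
    have h1 : c = 0 := funext fun j => hc j (Finset.notMem_empty j)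
    subst h1
    exact ⟨hfull l hr, rfl⟩
  obtain ⟨J, hJ⟩ := (Set.toFinite {J : Finset (Fin q) | P J}).exists_maximal ⟨∅, h0⟩
  have hJP : P J := hJ.1
  have key : ∀ j, ∃ (l : V →L[ℂ] ℂ) (c : Fin q → ℂ), (∀ k ∉ J, c k = 0) ∧
      ∀ᶠ v in 𝓝 v₀, ∀ ξ, ent (0 : V →L[ℂ] ℂ) (Pi.single j 1) h u v ξ = ent l c h u v ξ := by
    intro j
    by_cases hj : j ∈ J
    · refine ⟨0, Pi.single j 1, fun k hk => ?_, Eventually.of_forall fun v ξ => rfl⟩
      rw [Pi.single_eq_of_ne]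
      rintro rfl
      exact hk hj
    · have h1 : ¬ P (insert j J) := fun hP => hj (hJ.2 hP (Finset.subset_insert j J)
        (Finset.mem_insert_self j J))
      simp only [P] at h1
      push Not at h1
      obtain ⟨l, c, hc, hr, hne⟩ := h1
      have hcj : c j ≠ 0 := by
        intro hcj
        obtain ⟨h2, h3⟩ := hJP l c (fun k hk => by
          by_cases hkj : k = j
          · rw [hkj, hcj]
          · exact hc k fun hk' => (Finset.mem_insert.1 hk').elim hkj hk) hr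
        exact hne h2 h3
      refine ⟨-((c j)⁻¹ • l), Pi.single j 1 - (c j)⁻¹ • c, fun k hk => ?_, ?_⟩
      · by_cases hkj : k = j
        · subst hkj
          simp [hcj]
        · have h2 : c k = 0 := hc k fun hk' => (Finset.mem_insert.1 hk').elim hkj hk
          simp [h2, Pi.single_eq_of_ne hkj]
      · filter_upwards [hr] with v hv ξ
        have h2 : ent (-((c j)⁻¹ • l)) (Pi.single j 1 - (c j)⁻¹ • c) h u v ξ =
            ent ((0 : V →L[ℂ] ℂ) + (-(c j)⁻¹) • l) (Pi.single j 1 + (-(c j)⁻¹) • c) h u v ξ := by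
          congr 1
          · ext x
            simp
          · rw [neg_smul, sub_eq_add_neg]
        rw [h2, ent_add, ent_smul, hv ξ, mul_zero, add_zero]
  choose L C hC hLC using key
  refine ⟨J, hJP, fun l c => ⟨l + ∑ j, c j • L j, ∑ j, c j • C j, fun k hk => ?_, ?_⟩⟩
  · simp [Finset.sum_apply, hC _ k hk]
  · filter_upwards [(Filter.eventually_all).2 hLC] with v hv ξ
    have h1 : ent l c h u v ξ = ent (l + ∑ j, c j • (0 : V →L[ℂ] ℂ))
        (0 + ∑ j, c j • (Pi.single j 1 : Fin q → ℂ)) h u v ξ := by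
      congr 1
      · ext x
        simp
      · funext k
        simp [Finset.sum_apply, Pi.single_apply]
    have h2 : ent (l + ∑ j, c j • L j) (∑ j, c j • C j) h u v ξ =
        ent (l + ∑ j, c j • L j) (0 + ∑ j, c j • C j) h u v ξ := by rw [zero_add]
    rw [h1, h2, ent_add, ent_add, ent_fsum, ent_fsum]
    congr 1
    exact Finset.sum_congr rfl fun j _ => by rw [hv j ξ]

theorem ent_map (l : V →L[ℂ] ℂ) (c : Fin q → ℂ) {h h' : (Fin d → ℂ) → V}
    (u : Fin q → (Fin d → ℂ) → ℂ) {v : Fin d → ℂ} (hh : DifferentiableAt ℂ h v)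
    (G : V →L[ℂ] V) (c₀ : V) (hh' : h' =ᶠ[𝓝 v] fun w => G (h w) + c₀) (ξ : Fin d → ℂ) :
    ent l c h' u v ξ = ent (l.comp G) c h u v ξ := by
  unfold ent
  have h1 : HasFDerivAt (fun u => G (h u) + c₀) (G.comp (fderiv ℂ h v)) v :=
    (G.hasFDerivAt.comp v hh.hasFDerivAt).add_const c₀
  rw [hh'.fderiv_eq, h1.fderiv]
  rfl

theorem IsMin.map {J : Finset (Fin q)} {h h' : (Fin d → ℂ) → V}
    {u : Fin q → (Fin d → ℂ) → ℂ} {v₀ : Fin d → ℂ} (H : IsMin J h u v₀)
    (hh : ContDiffAt ℂ ω h v₀) (G : V ≃L[ℂ] V) (c₀ : V)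
    (hh' : h' =ᶠ[𝓝 v₀] fun w => G (h w) + c₀) : IsMin J h' u v₀ := by
  have key : ∀ᶠ v in 𝓝 v₀, ∀ (l : V →L[ℂ] ℂ) (c : Fin q → ℂ) (ξ : Fin d → ℂ),
      ent l c h' u v ξ = ent (l.comp (G : V →L[ℂ] V)) c h u v ξ := by
    filter_upwards [hh.eventually (by simp), eventually_eventually_nhds.2 hh'] with v h1 h2 l c ξ
    exact ent_map l c u (h1.differentiableAt (by simp)) (G : V →L[ℂ] V) c₀ h2 ξ
  refine ⟨fun l c hc hr => ?_, fun l c => ?_⟩
  · obtain ⟨h1, h2⟩ := H.1 (l.comp (G : V →L[ℂ] V)) c hc (by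
      filter_upwards [hr, key] with v h3 h4 ξ
      rw [← h4, h3])
    refine ⟨?_, h2⟩
    ext x
    have h3 := congrArg (fun L : V →L[ℂ] ℂ => L (G.symm x)) h1
    simpa using h3
  · obtain ⟨l', c', h1, h2⟩ := H.2 (l.comp (G : V →L[ℂ] V)) c
    refine ⟨l'.comp (G.symm : V →L[ℂ] V), c', h1, ?_⟩
    filter_upwards [h2, key] with v h3 h4 ξ
    rw [h4, h4, h3]
    congr 1
    ext x
    simp

/-- The functional with components `l` and `a`. -/
def mkf {q' : ℕ} (l : V →L[ℂ] ℂ) (a : Fin q' → ℂ) : Vx V q' →L[ℂ] ℂ :=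
  l.comp (WithLp.fstL 2 ℂ V (EuclideanSpace ℂ (Fin q'))) +
    ∑ j, a j • ((EuclideanSpace.proj j : EuclideanSpace ℂ (Fin q') →L[ℂ] ℂ).comp
      (WithLp.sndL 2 ℂ V (EuclideanSpace ℂ (Fin q'))))

theorem mkf_mkx {q' : ℕ} (l : V →L[ℂ] ℂ) (a : Fin q' → ℂ) (x : V)
    (z : EuclideanSpace ℂ (Fin q')) : mkf l a (mkx x z) = l x + ∑ j, a j * z j := by
  unfold mkf mkx
  simp

theorem exists_mkf {q' : ℕ} (l : Vx V q' →L[ℂ] ℂ) :
    ∃ (l₁ : V →L[ℂ] ℂ) (a : Fin q' → ℂ), l = mkf l₁ a := by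
  set e := (WithLp.prodContinuousLinearEquiv 2 ℂ V (EuclideanSpace ℂ (Fin q'))).symm with he
  refine ⟨l.comp ((e : _ →L[ℂ] _).comp (ContinuousLinearMap.inl ℂ V (EuclideanSpace ℂ (Fin q')))),
    fun j => l (mkx 0 (EuclideanSpace.single j 1)), ?_⟩
  ext w
  have hw : w = mkx w.fst w.snd := rfl
  have h1 : mkx w.fst w.snd = mkx w.fst 0 +
      ∑ j, (w.snd j) • (mkx 0 (EuclideanSpace.single j 1) : Vx V q') := by
    have h2 : ∀ j, (w.snd j) • (mkx (0 : V) (EuclideanSpace.single j 1) : Vx V q') =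
        mkx 0 (w.snd j • EuclideanSpace.single j 1) := by
      intro j
      unfold mkx
      rw [← WithLp.toLp_smul, Prod.smul_mk, smul_zero]
    have h3 : ∀ s : Finset (Fin q'), ∑ j ∈ s, mkx (0 : V) (w.snd j • EuclideanSpace.single j (1 : ℂ))
        = mkx 0 (∑ j ∈ s, w.snd j • EuclideanSpace.single j (1 : ℂ)) := by
      classical
      intro s
      induction s using Finset.induction_on with
      | empty =>
        simp only [Finset.sum_empty]
        rfl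
      | insert i s hi ih =>
        rw [Finset.sum_insert hi, Finset.sum_insert hi, ih]
        unfold mkx
        rw [← WithLp.toLp_add, Prod.mk_add_mk, add_zero]
    rw [Finset.sum_congr rfl fun j _ => h2 j, h3]
    have h4 : (∑ j, w.snd j • EuclideanSpace.single j (1 : ℂ)) = w.snd := by
      ext i
      simp [Pi.single_apply]
    rw [h4]
    unfold mkx
    rw [← WithLp.toLp_add, Prod.mk_add_mk, add_zero, zero_add]
  rw [hw, mkf_mkx, h1, map_add, map_sum]
  congr 1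
  refine Finset.sum_congr rfl fun j _ => ?_
  rw [map_smul, smul_eq_mul, mul_comm]

/-- **The rank of the mixed map, and its image.** -/
theorem mix_local {q' r : ℕ} {J : Finset (Fin q)} {h : (Fin d → ℂ) → V}
    {u : Fin q → (Fin d → ℂ) → ℂ} {v₀ : Fin d → ℂ} (hh : ContDiffAt ℂ ω h v₀)
    (hJ : IsMin J h u v₀) (hr : XRankAt r h u v₀) {σ : Fin q' → Fin q}
    (hσ : Function.Injective σ) (hσJ : ∀ j, j ∈ J ↔ ∃ k, σ k = j) {ℓ : Fin q' → (Fin d → ℂ) → ℂ}
    (hℓ : ∀ j, ContDiffAt ℂ ω (ℓ j) v₀)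
    (hℓu : ∀ j, ∀ᶠ v in 𝓝 v₀, Complex.exp (ℓ j v) = u (σ j) v) :
    (∃ m, RankAt r (fun v => (mkx (h v) (WithLp.toLp 2 fun j => ℓ j v) : Vx V q')) v₀ m) ∧
      ∀ l : Vx V q' →L[ℂ] ℂ, (∀ᶠ v in 𝓝 v₀, l (mkx (h v) (WithLp.toLp 2 fun j => ℓ j v)) =
        l (mkx (h v₀) (WithLp.toLp 2 fun j => ℓ j v₀))) → l = 0 := by
  classical
  set b : (Fin d → ℂ) → Vx V q' := fun v => mkx (h v) (WithLp.toLp 2 fun j => ℓ j v) with hb
  have hbc : ContDiffAt ℂ ω b v₀ := by
    have h1 : ContDiffAt ℂ ω (fun v => (h v, (WithLp.toLp 2 fun j => ℓ j v :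
        EuclideanSpace ℂ (Fin q')))) v₀ := by
      refine hh.prodMk (contDiffAt_euclidean.2 fun j => ?_)
      exact hℓ j
    exact (WithLp.prodContinuousLinearEquiv 2 ℂ V
      (EuclideanSpace ℂ (Fin q'))).symm.contDiff.contDiffAt.comp v₀ h1
  -- coefficients
  let cc : (Fin q' → ℂ) → (Fin q → ℂ) := fun a i => ∑ j, if σ j = i then a j else 0
  have hcσ : ∀ a j, cc a (σ j) = a j := by
    intro a j
    show ∑ k, (if σ k = σ j then a k else 0) = a j
    rw [Finset.sum_eq_single j (fun k _ hk => if_neg fun h => hk (hσ h))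
      fun hk => absurd (Finset.mem_univ j) hk, if_pos rfl]
  have hcc : ∀ a, ∀ i ∉ J, cc a i = 0 := fun a i hi =>
    Finset.sum_eq_zero fun j _ => if_neg fun h => hi ((hσJ i).2 ⟨j, h⟩)
  have hcc' : ∀ c : Fin q → ℂ, (∀ j ∉ J, c j = 0) → cc (fun j => c (σ j)) = c := by
    intro c hc
    funext i
    by_cases hi : i ∈ J
    · obtain ⟨j, rfl⟩ := (hσJ i).1 hi
      rw [hcσ]
    · rw [hcc _ i hi, hc i hi]
  -- derivatives
  have hder : ∀ᶠ v in 𝓝 v₀, ∀ (l₁ : V →L[ℂ] ℂ) (a : Fin q' → ℂ) (ξ : Fin d → ℂ),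
      mkf l₁ a (fderiv ℂ b v ξ) = ent l₁ (cc a) h u v ξ := by
    filter_upwards [hbc.eventually (by simp), hh.eventually (by simp),
      (Filter.eventually_all).2 fun j => (hℓ j).eventually (by simp),
      (Filter.eventually_all).2 fun j => eventually_eventually_nhds.2 (hℓu j)]
      with v h1 h2 h3 h4 l₁ a ξ
    have h5 : HasFDerivAt (fun w => mkf l₁ a (b w)) ((mkf l₁ a).comp (fderiv ℂ b v)) v :=
      (mkf l₁ a).hasFDerivAt.comp v (h1.differentiableAt (by simp)).hasFDerivAt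
    have h6 : HasFDerivAt (fun w => l₁ (h w) + ∑ j, a j * ℓ j w)
        (l₁.comp (fderiv ℂ h v) + ∑ j, a j • fderiv ℂ (ℓ j) v) v := by
      refine (l₁.hasFDerivAt.comp v (h2.differentiableAt (by simp)).hasFDerivAt).add ?_
      refine HasFDerivAt.fun_sum fun j _ => ?_
      exact ((h3 j).differentiableAt (by simp)).hasFDerivAt.const_mul (a j)
    have h7 : (fun w => mkf l₁ a (b w)) = fun w => l₁ (h w) + ∑ j, a j * ℓ j w := by
      funext w
      rw [hb, mkf_mkx]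
    rw [h7] at h5
    have h8 := h5.unique h6
    have h9 : mkf l₁ a (fderiv ℂ b v ξ) = l₁ (fderiv ℂ h v ξ) + ∑ j, a j * fderiv ℂ (ℓ j) v ξ := by
      have := congrArg (fun L : (Fin d → ℂ) →L[ℂ] ℂ => L ξ) h8
      simpa [_root_.sum_apply] using this
    have h10 : ∀ j, fderiv ℂ (ℓ j) v ξ = fderiv ℂ (u (σ j)) v ξ / u (σ j) v := by
      intro j
      have h11 : HasFDerivAt (fun w => Complex.exp (ℓ j w))
          (Complex.exp (ℓ j v) • fderiv ℂ (ℓ j) v) v :=
        ((h3 j).differentiableAt (by simp)).hasFDerivAt.cexp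
      have h12 : fderiv ℂ (u (σ j)) v = Complex.exp (ℓ j v) • fderiv ℂ (ℓ j) v := by
        have h13 : u (σ j) =ᶠ[𝓝 v] fun w => Complex.exp (ℓ j w) := by
          filter_upwards [h4 j] with w hw
          exact hw.symm
        rw [h13.fderiv_eq]
        exact h11.fderiv
      rw [h12, ← (h4 j).self_of_nhds]
      show _ = Complex.exp (ℓ j v) * fderiv ℂ (ℓ j) v ξ / Complex.exp (ℓ j v)
      rw [mul_div_cancel_left₀ _ (Complex.exp_ne_zero _)]
    rw [h9]
    unfold ent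
    congr 1
    have h14 : ∀ i, cc a i * (fderiv ℂ (u i) v ξ / u i v) =
        ∑ j, if σ j = i then a j * (fderiv ℂ (u i) v ξ / u i v) else 0 := by
      intro i
      show (∑ j, if σ j = i then a j else 0) * _ = _
      rw [Finset.sum_mul]
      exact Finset.sum_congr rfl fun j _ => by split_ifs <;> simp
    rw [Finset.sum_congr rfl fun i _ => h14 i, Finset.sum_comm]
    refine Finset.sum_congr rfl fun j _ => ?_
    rw [Finset.sum_ite_eq Finset.univ (σ j), if_pos (Finset.mem_univ _), h10 j]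
  refine ⟨?_, fun l hl => ?_⟩
  · obtain ⟨m, c, h0, hs⟩ := hr
    have h1 : ∀ k a, ∃ m' : Vx V q' →L[ℂ] ℂ, ∀ᶠ v in 𝓝 v₀, ∀ ξ,
        ent (m k a) (c k a) h u v ξ = m' (fderiv ℂ b v ξ) := by
      intro k a
      obtain ⟨l', c', h2, h3⟩ := hJ.2 (m k a) (c k a)
      refine ⟨mkf l' fun j => c' (σ j), ?_⟩
      filter_upwards [h3, hder] with v h4 h5 ξ
      rw [h4, h5, hcc' c' h2]
    choose M hM using h1
    have h2 : ∀ k, ∀ᶠ v in 𝓝 v₀, minor (M k) b v = xcoef (m k) (c k) h u v := by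
      intro k
      filter_upwards [(Filter.eventually_all).2 (hM k)] with v hv
      rw [minor_eq, xcoef_eq]
      congr 1
      ext a i
      rw [Matrix.of_apply, Matrix.of_apply, hv]
    refine ⟨M, ?_, ?_⟩
    · rw [(h2 0).self_of_nhds]
      exact h0
    · convert hs using 4 with ξ k
      refine Filter.EventuallyEq.fderiv_eq ?_
      filter_upwards [h2 k.succ, h2 0] with v h3 h4
      rw [h3, h4]
  · obtain ⟨l₁, a, rfl⟩ := exists_mkf l
    have h1 : Rel h u v₀ l₁ (cc a) := by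
      filter_upwards [hder, eventually_eventually_nhds.2 hl, hbc.eventually (by simp)]
        with v h2 h3 h4 ξ
      rw [← h2]
      have h5 : HasFDerivAt (fun w => mkf l₁ a (b w)) ((mkf l₁ a).comp (fderiv ℂ b v)) v :=
        (mkf l₁ a).hasFDerivAt.comp v (h4.differentiableAt (by simp)).hasFDerivAt
      have h6 : (fun w => mkf l₁ a (b w)) =ᶠ[𝓝 v] fun _ => mkf l₁ a (b v₀) := h3
      have h7 : HasFDerivAt (fun w => mkf l₁ a (b w)) (0 : (Fin d → ℂ) →L[ℂ] ℂ) v :=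
        (hasFDerivAt_const (mkf l₁ a (b v₀)) v).congr_of_eventuallyEq h6
      exact congrArg (fun L : (Fin d → ℂ) →L[ℂ] ℂ => L ξ) (h5.unique h7)
    obtain ⟨h2, h3⟩ := hJ.1 l₁ (cc a) (hcc a) h1
    have h4 : a = 0 := by
      funext j
      rw [← hcσ a j, h3]
      rfl
    subst h2 h4
    ext w
    simp [mkf]

end Mix

end Vale.Agent.P281.H615.UL
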